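import Vale.Agent.P181.RG.Defs
import Vale.Agent.P181.MR.H312.Half

/-!
# P181, line RG, block [HALF] (helper452): the theorem of line MR (helper312)
-/

set_option autoImplicit false

namespace Vale.Agent.P181.RG.H452

/-- **[HALF]** -/
theorem half : HalfRG := MR.H312.half

end Vale.Agent.P181.RG.H452
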